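import Vale.Agent.Lib.P012.Pairing

namespace Vale.Agent.Lib.P012

/-- Sub-additivity of `N` under multiplication of denominators: `N(b c) ≤ N(b) + N(c)`. -/
theorem nle_mul {b c k l : ℕ} (hb : 1 ≤ b) (hc : 1 ≤ c) (hB : NLe b k) (hC : NLe c l) :
    NLe (b * c) (k + l) := by
  intro a ha hab
  have hb0 : 0 < b := by omega
  have hc0 : 0 < c := by omega
  set q := a / b with hq
  set r := a % b with hr
  have hdiv : b * q + r = a := Nat.div_add_mod a b
  have hrb : r < b := Nat.mod_lt _ hb0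
  have hqc : q < c := by
    rw [hq]
    exact Nat.div_lt_of_lt_mul hab
  have hbq : (0 : ℚ) < (b : ℚ) := by exact_mod_cast hb0
  have hcq : (0 : ℚ) < (c : ℚ) := by exact_mod_cast hc0
  have hdivq : (b : ℚ) * (q : ℚ) + (r : ℚ) = (a : ℚ) := by exact_mod_cast hdiv
  have hsplit : (a : ℚ) / ((b * c : ℕ) : ℚ) = (q : ℚ) / (c : ℚ) + ((r : ℚ) / (b : ℚ)) / (c : ℚ) := by
    push_cast
    field_simp
    linarith
  have hlt1 : (a : ℚ) / ((b * c : ℕ) : ℚ) < 1 := by
    have hbc : (0 : ℚ) < ((b * c : ℕ) : ℚ) := by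
      have : 0 < b * c := Nat.mul_pos hb0 hc0
      exact_mod_cast this
    rw [div_lt_one hbc]
    exact_mod_cast hab
  rcases Nat.eq_zero_or_pos q with hq0 | hqpos
  · have hrpos : 1 ≤ r := by
      rw [hq0] at hdiv
      omega
    have h2 : IsShortEgyptian ((r : ℚ) / (b : ℚ)) k := hB r hrpos hrb
    have h3 := h2.div_nat (c := c) hc
    have : (a : ℚ) / ((b * c : ℕ) : ℚ) = ((r : ℚ) / (b : ℚ)) / (c : ℚ) := by
      rw [hsplit, hq0]
      simp
    rw [this]
    exact h3.mono (by omega)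
  · have h1 : IsShortEgyptian ((q : ℚ) / (c : ℚ)) l := hC q hqpos hqc
    rcases Nat.eq_zero_or_pos r with hr0 | hrpos
    · have : (a : ℚ) / ((b * c : ℕ) : ℚ) = (q : ℚ) / (c : ℚ) := by
        rw [hsplit, hr0]
        simp
      rw [this]
      exact h1.mono (by omega)
    · have h2 : IsShortEgyptian ((r : ℚ) / (b : ℚ)) k := hB r hrpos hrb
      have h3 := h2.div_nat (c := c) hc
      rw [hsplit] at hlt1 ⊢
      have := h1.add h3 hlt1
      rw [add_comm k l]
      exact this

end Vale.Agent.Lib.P012
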