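import Mathlib

namespace Vale.Agent.Lib.P012

/-- `IsShortEgyptian q k`: the rational `q` is a sum of at most `k` distinct unit fractions
`1/n` with integer denominators `n ≥ 2`. -/
def IsShortEgyptian (q : ℚ) (k : ℕ) : Prop :=
  ∃ S : Finset ℕ, S.card ≤ k ∧ (∀ n ∈ S, 2 ≤ n) ∧ ∑ n ∈ S, (1 : ℚ) / (n : ℚ) = q

/-- `NLe b k` says `N(b) ≤ k`: every fraction `a/b` with `1 ≤ a < b` is a sum of at most `k`
distinct unit fractions with denominators at least 2. -/
def NLe (b k : ℕ) : Prop :=
  ∀ a : ℕ, 1 ≤ a → a < b → IsShortEgyptian ((a : ℚ) / (b : ℚ)) k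

/-- the unit fraction map -/
def uf (n : ℕ) : ℚ := (1 : ℚ) / (n : ℚ)

/-- the squared unit fraction map, used as a potential -/
def uf2 (n : ℕ) : ℚ := (1 : ℚ) / ((n : ℚ) * (n : ℚ))

lemma uf_pos {n : ℕ} (hn : 1 ≤ n) : 0 < uf n := by
  unfold uf
  have : (0 : ℚ) < (n : ℚ) := by exact_mod_cast hn
  positivity

lemma uf_nonneg (n : ℕ) : 0 ≤ uf n := by
  unfold uf
  positivity

/-- multisets of exactly `k` positive integers whose unit fractions sum to `x` -/
def solSet (k : ℕ) (x : ℚ) : Set (Multiset ℕ) :=
  {M | M.card = k ∧ (∀ n ∈ M, 1 ≤ n) ∧ (M.map uf).sum = x}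

lemma solSet_finite : ∀ (k : ℕ) (x : ℚ), (solSet k x).Finite := by
  intro k
  induction k with
  | zero =>
    intro x
    apply Set.Finite.subset (Set.finite_singleton (0 : Multiset ℕ))
    intro M hM
    have : M.card = 0 := hM.1
    simpa using this
  | succ k ih =>
    intro x
    have hsub : solSet (k + 1) x ⊆
        ⋃ n₀ ∈ (Finset.range (⌊((k : ℚ) + 1) / x⌋₊ + 1) : Set ℕ),
          (fun M' : Multiset ℕ => n₀ ::ₘ M') '' (solSet k (x - uf n₀)) := by
      intro M hM
      obtain ⟨hcard, hpos, hsum⟩ := hM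
      have hne : M ≠ 0 := by
        intro h
        rw [h] at hcard
        simp at hcard
      -- x is positive
      have hxpos : 0 < x := by
        obtain ⟨n, hn⟩ := Multiset.exists_mem_of_ne_zero hne
        have h1 : uf n ≤ (M.map uf).sum := by
          apply Multiset.single_le_sum
          · intro y hy
            obtain ⟨m, _, rfl⟩ := Multiset.mem_map.1 hy
            exact uf_nonneg m
          · exact Multiset.mem_map_of_mem uf hn
        have h2 := uf_pos (hpos n hn)
        linarith
      -- some element is small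
      have hex : ∃ n ∈ M, (n : ℚ) * x ≤ (k : ℚ) + 1 := by
        by_contra hcon
        push Not at hcon
        have hlt : (M.map uf).sum < (M.map (fun _ : ℕ => x / ((k : ℚ) + 1))).sum := by
          apply Multiset.sum_lt_sum_of_nonempty hne
          intro n hn
          have hn1 : (0 : ℚ) < (n : ℚ) := by exact_mod_cast hpos n hn
          have hk1 : (0 : ℚ) < (k : ℚ) + 1 := by positivity
          unfold uf
          rw [div_lt_div_iff₀ hn1 hk1]
          have := hcon n hn
          linarith
        rw [Multiset.map_const', Multiset.sum_replicate, hcard, hsum] at hlt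
        have hk1 : ((k : ℚ) + 1) ≠ 0 := by positivity
        rw [nsmul_eq_mul] at hlt
        have : ((k + 1 : ℕ) : ℚ) * (x / ((k : ℚ) + 1)) = x := by
          push_cast
          field_simp
        rw [this] at hlt
        exact lt_irrefl _ hlt
      obtain ⟨n₀, hn₀, hn₀x⟩ := hex
      obtain ⟨M', rfl⟩ := Multiset.exists_cons_of_mem hn₀
      simp only [Set.mem_iUnion]
      refine ⟨n₀, ?_, M', ?_, rfl⟩
      · simp only [Finset.coe_range, Set.mem_Iio]
        have h1 : (n₀ : ℚ) ≤ ((k : ℚ) + 1) / x := by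
          rw [le_div_iff₀ hxpos]
          exact hn₀x
        have h2 : n₀ ≤ ⌊((k : ℚ) + 1) / x⌋₊ := Nat.le_floor h1
        omega
      · refine ⟨?_, ?_, ?_⟩
        · simpa using hcard
        · intro n hn
          exact hpos n (Multiset.mem_cons_of_mem hn)
        · rw [Multiset.map_cons, Multiset.sum_cons] at hsum
          linarith
    apply Set.Finite.subset _ hsub
    apply Set.Finite.biUnion (Finset.finite_toSet _)
    intro n₀ _
    exact Set.Finite.image _ (ih _)

/-- multisets of at most `k` integers `≥ 2` whose unit fractions sum to `x` -/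
def candSet (k : ℕ) (x : ℚ) : Set (Multiset ℕ) :=
  {M | M.card ≤ k ∧ (∀ n ∈ M, 2 ≤ n) ∧ (M.map uf).sum = x}

lemma candSet_finite (k : ℕ) (x : ℚ) : (candSet k x).Finite := by
  have hsub : candSet k x ⊆ ⋃ j ∈ (Finset.range (k + 1) : Set ℕ), solSet j x := by
    intro M hM
    obtain ⟨hcard, hge, hsum⟩ := hM
    simp only [Set.mem_iUnion]
    refine ⟨M.card, ?_, rfl, ?_, hsum⟩
    · simp only [Finset.coe_range, Set.mem_Iio]
      omega
    · intro n hn
      have := hge n hn
      omega
  apply Set.Finite.subset _ hsub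
  apply Set.Finite.biUnion (Finset.finite_toSet _)
  intro j _
  exact solSet_finite j x

/-- The pairing lemma: a multiset of `k` unit fractions with denominators at least 2 and
sum less than 1 can be replaced by at most `k` distinct unit fractions with the same sum. -/
theorem pairing (M : Multiset ℕ) (hM : ∀ n ∈ M, 2 ≤ n) (hlt : (M.map uf).sum < 1) :
    IsShortEgyptian (M.map uf).sum M.card := by
  set x := (M.map uf).sum with hx
  set k := M.card with hk
  have hne : (candSet k x).Nonempty := ⟨M, le_refl _, hM, rfl⟩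
  obtain ⟨Ms, hMs, hmax⟩ :=
    Set.Finite.exists_maximalFor (fun M : Multiset ℕ => (M.map uf2).sum) (candSet k x)
      (candSet_finite k x) hne
  obtain ⟨hcard, hge, hsum⟩ := hMs
  have hnodup : Ms.Nodup := by
    rw [Multiset.nodup_iff_count_le_one]
    by_contra hcon
    push Not at hcon
    obtain ⟨n, hn⟩ := hcon
    have hmem : n ∈ Ms := Multiset.count_pos.1 (by omega)
    obtain ⟨M1, rfl⟩ := Multiset.exists_cons_of_mem hmem
    rw [Multiset.count_cons_self] at hn
    have hmem1 : n ∈ M1 := Multiset.count_pos.1 (by omega)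
    obtain ⟨M2, rfl⟩ := Multiset.exists_cons_of_mem hmem1
    have hn2 : 2 ≤ n := hge n (Multiset.mem_cons_self n _)
    have hge2 : ∀ m ∈ M2, 2 ≤ m := fun m hm =>
      hge m (Multiset.mem_cons_of_mem (Multiset.mem_cons_of_mem hm))
    have hrest : 0 ≤ (M2.map uf).sum := by
      apply Multiset.sum_nonneg
      intro y hy
      obtain ⟨m, _, rfl⟩ := Multiset.mem_map.1 hy
      exact uf_nonneg m
    simp only [Multiset.map_cons, Multiset.sum_cons, Multiset.card_cons] at hsum hcard
    have hnq : (2 : ℚ) ≤ (n : ℚ) := by exact_mod_cast hn2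
    rcases Nat.even_or_odd' n with ⟨m, hm | hm⟩
    · -- even case
      have hm2 : 2 ≤ m := by
        by_contra hm1
        have hm1' : m = 1 := by omega
        rw [hm, hm1'] at hsum
        have : uf (2 * 1) = 1 / 2 := by unfold uf; norm_num
        rw [this] at hsum
        linarith
      have hmq : (2 : ℚ) ≤ (m : ℚ) := by exact_mod_cast hm2
      have hcand : (m ::ₘ M2) ∈ candSet k x := by
        refine ⟨?_, ?_, ?_⟩
        · simp only [Multiset.card_cons]; omega
        · intro y hy
          rcases Multiset.mem_cons.1 hy with rfl | hy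
          · exact hm2
          · exact hge2 y hy
        · simp only [Multiset.map_cons, Multiset.sum_cons]
          rw [← hsum, hm]
          unfold uf
          push_cast
          field_simp
          ring
      have h1 := hmax hcand
      simp only [Multiset.map_cons, Multiset.sum_cons] at h1
      have hstrict : uf2 n + uf2 n < uf2 m := by
        rw [hm]
        unfold uf2
        push_cast
        have hm0 : (0 : ℚ) < (m : ℚ) := by linarith
        rw [← sub_pos]
        have : 1 / ((m : ℚ) * (m : ℚ)) - (1 / (2 * (m : ℚ) * (2 * (m : ℚ))) + 1 / (2 * (m : ℚ) * (2 * (m : ℚ))))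
            = 1 / (2 * ((m : ℚ) * (m : ℚ))) := by
          field_simp
          ring
        rw [this]
        positivity
      have h2 := h1 (by linarith)
      linarith
    · -- odd case
      have hm1 : 1 ≤ m := by omega
      have hmq : (1 : ℚ) ≤ (m : ℚ) := by exact_mod_cast hm1
      have hcand : ((m + 1) ::ₘ ((2 * m + 1) * (m + 1)) ::ₘ M2) ∈ candSet k x := by
        refine ⟨?_, ?_, ?_⟩
        · simp only [Multiset.card_cons]; omega
        · intro y hy
          rcases Multiset.mem_cons.1 hy with rfl | hy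
          · omega
          · rcases Multiset.mem_cons.1 hy with rfl | hy
            · nlinarith
            · exact hge2 y hy
        · simp only [Multiset.map_cons, Multiset.sum_cons]
          rw [← hsum, hm]
          unfold uf
          push_cast
          field_simp
          ring
      have h1 := hmax hcand
      simp only [Multiset.map_cons, Multiset.sum_cons] at h1
      have hstrict : uf2 n + uf2 n < uf2 (m + 1) + uf2 ((2 * m + 1) * (m + 1)) := by
        rw [hm]
        unfold uf2
        push_cast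
        have hm0 : (0 : ℚ) < (m : ℚ) := by linarith
        rw [← sub_pos]
        have : 1 / (((m : ℚ) + 1) * ((m : ℚ) + 1))
              + 1 / ((2 * (m : ℚ) + 1) * ((m : ℚ) + 1) * ((2 * (m : ℚ) + 1) * ((m : ℚ) + 1)))
              - (1 / ((2 * (m : ℚ) + 1) * (2 * (m : ℚ) + 1)) + 1 / ((2 * (m : ℚ) + 1) * (2 * (m : ℚ) + 1)))
            = 2 * ((m : ℚ) * (m : ℚ)) /
                ((2 * (m : ℚ) + 1) * ((m : ℚ) + 1) * ((2 * (m : ℚ) + 1) * ((m : ℚ) + 1))) := by
          field_simp
          ring
        rw [this]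
        positivity
      have h2 := h1 (by linarith)
      linarith
  refine ⟨⟨Ms, hnodup⟩, hcard, fun n hn => hge n hn, ?_⟩
  rw [Finset.sum_eq_multiset_sum]
  exact hsum

lemma IsShortEgyptian.mono {q : ℚ} {k k' : ℕ} (h : IsShortEgyptian q k) (hk : k ≤ k') :
    IsShortEgyptian q k' := by
  obtain ⟨S, hc, hg, hs⟩ := h
  exact ⟨S, le_trans hc hk, hg, hs⟩

/-- sub-additivity: sums of short Egyptian fractions are short, as long as the total is below 1 -/
theorem IsShortEgyptian.add {q₁ q₂ : ℚ} {k₁ k₂ : ℕ} (h₁ : IsShortEgyptian q₁ k₁)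
    (h₂ : IsShortEgyptian q₂ k₂) (hlt : q₁ + q₂ < 1) : IsShortEgyptian (q₁ + q₂) (k₁ + k₂) := by
  obtain ⟨S₁, hc₁, hg₁, hs₁⟩ := h₁
  obtain ⟨S₂, hc₂, hg₂, hs₂⟩ := h₂
  have hsum : ((S₁.val + S₂.val).map uf).sum = q₁ + q₂ := by
    rw [Multiset.map_add, Multiset.sum_add]
    rw [Finset.sum_eq_multiset_sum] at hs₁ hs₂
    have e1 : (S₁.val.map uf).sum = q₁ := hs₁
    have e2 : (S₂.val.map uf).sum = q₂ := hs₂
    rw [e1, e2]
  have hp := pairing (S₁.val + S₂.val) (by
    intro n hn
    rcases Multiset.mem_add.1 hn with h | h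
    · exact hg₁ n h
    · exact hg₂ n h) (by rw [hsum]; exact hlt)
  rw [hsum] at hp
  apply hp.mono
  rw [Multiset.card_add]
  have : S₁.val.card = S₁.card := rfl
  have : S₂.val.card = S₂.card := rfl
  omega

/-- scaling: dividing a short Egyptian fraction by a positive integer keeps it short -/
theorem IsShortEgyptian.div_nat {q : ℚ} {k : ℕ} (h : IsShortEgyptian q k) {c : ℕ} (hc : 1 ≤ c) :
    IsShortEgyptian (q / (c : ℚ)) k := by
  obtain ⟨S, hcard, hg, hs⟩ := h
  have hinj : Function.Injective (fun n : ℕ => n * c) := by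
    intro a b hab
    exact Nat.eq_of_mul_eq_mul_right (by omega) hab
  refine ⟨S.image (fun n : ℕ => n * c), ?_, ?_, ?_⟩
  · rw [Finset.card_image_of_injective S hinj]
    exact hcard
  · intro n hn
    obtain ⟨m, hm, rfl⟩ := Finset.mem_image.1 hn
    have := hg m hm
    nlinarith
  · rw [Finset.sum_image (fun a _ b _ hab => hinj hab), ← hs, Finset.sum_div]
    apply Finset.sum_congr rfl
    intro n _
    push_cast
    rw [div_div]

/-- Quasi-monotonicity of `N`: if `2 ≤ b ≤ L` and `N(L) ≤ k` then `N(b) ≤ 2k`. -/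
theorem nle_of_le {b L k : ℕ} (hb : 2 ≤ b) (hbL : b ≤ L) (hL : NLe L k) : NLe b (2 * k) := by
  intro a ha hab
  have hb0 : 0 < b := by omega
  have hL0 : 0 < L := by omega
  set q := a * L / b with hq
  set r := a * L % b with hr
  have hdiv : b * q + r = a * L := Nat.div_add_mod (a * L) b
  have hrb : r < b := Nat.mod_lt _ hb0
  have hqL : q < L := by
    rw [hq]
    apply Nat.div_lt_of_lt_mul
    exact Nat.mul_lt_mul_of_pos_right hab hL0
  have hq1 : 1 ≤ q := by
    rw [hq]
    apply (Nat.one_le_div_iff hb0).2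
    calc b ≤ L := hbL
      _ = 1 * L := (one_mul L).symm
      _ ≤ a * L := Nat.mul_le_mul_right L ha
  have hbq : (0 : ℚ) < (b : ℚ) := by exact_mod_cast hb0
  have hLq : (0 : ℚ) < (L : ℚ) := by exact_mod_cast hL0
  have hdivq : (b : ℚ) * (q : ℚ) + (r : ℚ) = (a : ℚ) * (L : ℚ) := by exact_mod_cast hdiv
  have hsplit : (a : ℚ) / (b : ℚ) = (q : ℚ) / (L : ℚ) + ((r : ℚ) / (L : ℚ)) / (b : ℚ) := by
    field_simp
    linarith
  have h1 : IsShortEgyptian ((q : ℚ) / (L : ℚ)) k := hL q hq1 hqL
  rcases Nat.eq_zero_or_pos r with hr0 | hrpos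
  · have : (a : ℚ) / (b : ℚ) = (q : ℚ) / (L : ℚ) := by
      rw [hsplit, hr0]
      simp
    rw [this]
    exact h1.mono (by omega)
  · have h2 : IsShortEgyptian ((r : ℚ) / (L : ℚ)) k := hL r hrpos (lt_of_lt_of_le hrb hbL)
    have h3 := h2.div_nat (c := b) (by omega)
    have hlt1 : (a : ℚ) / (b : ℚ) < 1 := by
      rw [div_lt_one hbq]
      exact_mod_cast hab
    rw [hsplit] at hlt1 ⊢
    have := h1.add h3 hlt1
    rw [two_mul]
    exact this

end Vale.Agent.Lib.P012
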